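import Vale.Agent.P042.V.Defs
import Vale.Agent.P042.T.Seq
import Vale.Agent.P042.T.Gw

/-! # P042 V/Big (TASK; helper names end with _vbi): large primes.
Model: the proof of `loc_of` in S/QLocA.lean (`two_qo`, `av_zero_qo`, `av_one_qo`, `av_sub_qo`, `av_triv_qo`).  `DM_lw`: split on `p ≤ y`.  `DM_small`: `gw_powW` on both sides.
`big_loc`: `c = min c' (1 / 4)` with `c'` from `hua_lead k`; `Nat.sum_divisors_prime_pow`, `gw_powW`, `hD`; for `j = 0` the sum is `1`; for `j + 1` it is `κ ≤ B p ^ (-1 / 4) ≤ 1` (`s = κ` in `Sec`), and the sum of the norms is at most `2 ‖G‖ + κ`. -/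

namespace Vale.Agent.P042.S

open Finset Polynomial

theorem DM_lw {y : ℕ} {D₁ : ℕ → ℕ → ℤ → ℝ} {ω : ℕ → ℤ → ℝ} (h1 : LW D₁)
    (hper : ∀ p, Function.Periodic (ω p) (p : ℤ))
    (hω : ∀ p : ℕ, p.Prime → y < p → ∑ t ∈ range p, ω p t = p ∧ ∀ n, 0 ≤ ω p n ∧ ω p n ≤ p) :
    LW (DM y D₁ ω) := by
  refine ⟨fun p n => ?_, fun p i => ?_, fun p hp i n => ?_, fun p hp i n => ?_⟩ <;>
    rw [DM] <;> split_ifs with hy
  · exact h1.zero p n
  · rfl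
  · exact h1.per p i
  · match i with
    | 0 => exact fun _ => rfl
    | 1 =>
      intro n
      simp only [Dw_qo, pow_one, hper p n]
    | _ + 2 => exact fun _ => rfl
  · exact h1.mart p hp i n
  · match i with
    | 0 =>
      have h3 := sum_perm (f := fun n => ((ω p n : ℝ) : ℂ)) (q := p)
        (fun n => by simp only [hper p n]) (m := 1) isCoprime_one_left n
      have h4 : ∑ t ∈ range p, ω p (n + 1 * t) = ∑ t ∈ range p, ω p t := by exact_mod_cast h3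
      simp only [Dw_qo, pow_zero, Nat.cast_one, sum_sub_distrib, h4, (hω p hp (not_le.1 hy)).1]
      simp
    | i + 1 => simp [Dw_qo]
  · exact h1.bd p hp i n
  · have h3 : (1 : ℝ) ≤ p := by exact_mod_cast hp.one_le
    match i with
    | 0 => simp [Dw_qo]
    | 1 =>
      have h4 := (hω p hp (not_le.1 hy)).2 n
      simp only [Dw_qo, pow_one]
      rw [abs_le]
      constructor <;> linarith [h4.1, h4.2]
    | _ + 2 =>
      simp only [Dw_qo, abs_zero]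
      positivity

theorem DM_small {h : ℤ[X]} {y : ℕ} {D₁ : ℕ → ℕ → ℤ → ℝ} {ω : ℕ → ℤ → ℝ} (h1 : LW D₁)
    (h2 : LW (DM y D₁ ω)) {p : ℕ} (hp : p.Prime) (hy : p ≤ y) (j : ℕ) (a : ℤ) :
    ∑ d ∈ (p ^ j).divisors, tm h (DM y D₁ ω) (p ^ j) a d =
      ∑ d ∈ (p ^ j).divisors, tm h D₁ (p ^ j) a d := by
  simp only [Nat.sum_divisors_prime_pow hp, tm, gw_powW h1 hp, gw_powW h2 hp, DM, if_pos hy]

theorem big_loc (k : ℕ) : ∃ c : ℝ, 0 < c ∧ ∀ h : ℤ[X], 1 ≤ h.natDegree → h.natDegree ≤ k →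
    ∀ (D : ℕ → ℕ → ℤ → ℝ), LW D → ∀ p : ℕ, p.Prime → ∀ (ω : ℤ → ℝ) (B : ℝ), D p = Dw_qo ω → 0 ≤ B →
      B * (p : ℝ) ^ (-(1 / 4) : ℝ) ≤ 1 →
      (∀ (j : ℕ) (a : ℤ), IsCoprime a p → ∃ κ : ℝ, 0 ≤ κ ∧
        κ ≤ B * ((p ^ (j + 1) : ℕ) : ℝ) ^ (-(1 / 4) : ℝ) ∧
        (av (p ^ (j + 1)) fun n => ω n * ph h a (p ^ (j + 1)) n) = κ) →
      ∀ (j : ℕ) (a : ℤ), IsCoprime a p →
        Sec 1 0 (∑ d ∈ (p ^ j).divisors, tm h D (p ^ j) a d) ∧
        ∑ d ∈ (p ^ j).divisors, ‖tm h D (p ^ j) a d‖ ≤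
          (6 * |(h.leadingCoeff : ℝ)| + B + 1) * ((p ^ j : ℕ) : ℝ) ^ (-c) := by
  obtain ⟨c, hc, -, hua⟩ := hua_lead k
  refine ⟨min c (1 / 4), lt_min hc (by norm_num),
    fun h d1 dk D hL p hp ω B hD hB hB1 hκ j a ha => ?_⟩
  simp only [Nat.sum_divisors_prime_pow hp, tm, gw_powW hL hp, hD]
  have l0 := abs_nonneg (h.leadingCoeff : ℝ)
  match j with
  | 0 =>
    simp only [zero_add, range_one, sum_singleton, pow_zero, Dw_qo]
    rw [av_one_qo, av_triv_qo]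
    simp only [norm_one, Nat.cast_one, Real.one_rpow, mul_one]
    exact ⟨sec_one 0, by linarith⟩
  | j + 1 =>
    obtain ⟨κ, k0, k1, k2⟩ := hκ j a ha
    rw [two_qo _ fun i => av_zero_qo _ _,
      two_qo _ fun i => by simp only [Dw_qo]; rw [av_zero_qo, norm_zero]]
    simp only [Dw_qo]
    rw [av_one_qo, av_sub_qo, sub_add_cancel, k2]
    have hq : 0 < p ^ (j + 1) := pow_pos hp.pos _
    have hq1 : (1 : ℝ) ≤ ((p ^ (j + 1) : ℕ) : ℝ) := by exact_mod_cast hq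
    have h3 : ((p ^ (j + 1) : ℕ) : ℝ) ^ (-(1 / 4) : ℝ) ≤ (p : ℝ) ^ (-(1 / 4) : ℝ) :=
      Real.rpow_le_rpow_of_nonpos (by exact_mod_cast hp.pos)
        (by exact_mod_cast Nat.le_self_pow j.succ_ne_zero p) (by norm_num)
    refine ⟨Or.inr ⟨κ, k0, k1.trans ((mul_le_mul_of_nonneg_left h3 hB).trans hB1), by simp⟩, ?_⟩
    have h4 := hua h d1 dk (p ^ (j + 1)) hq a (by push_cast; exact ha.pow_right)
    have h5 := norm_sub_le (κ : ℂ) (av (p ^ (j + 1)) (ph h a (p ^ (j + 1))))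
    rw [Complex.norm_real, Real.norm_of_nonneg k0] at h5
    have h6 : ((p ^ (j + 1) : ℕ) : ℝ) ^ (-c) ≤ ((p ^ (j + 1) : ℕ) : ℝ) ^ (-min c (1 / 4)) :=
      Real.rpow_le_rpow_of_exponent_le hq1 (neg_le_neg (min_le_left _ _))
    have h7 : ((p ^ (j + 1) : ℕ) : ℝ) ^ (-(1 / 4) : ℝ) ≤
        ((p ^ (j + 1) : ℕ) : ℝ) ^ (-min c (1 / 4)) :=
      Real.rpow_le_rpow_of_exponent_le hq1 (neg_le_neg (min_le_right _ _))
    have h8 := mul_le_mul_of_nonneg_left h6 l0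
    have h9 := mul_le_mul_of_nonneg_left h7 hB
    have h10 : (0 : ℝ) ≤ ((p ^ (j + 1) : ℕ) : ℝ) ^ (-min c (1 / 4)) := by positivity
    have h11 := mul_nonneg l0 h10
    linarith

end Vale.Agent.P042.S
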