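import Vale.Agent.P042.V.Defs

/-! # P042 V/CubZ (TASK; helper names end with _vcu): cubics with vanishing discriminant.
`b₀ = β ^ 2 - 3 α γ`, `E = 27 α ^ 2 δ + 2 β ^ 3 - 9 α β γ`, `Y = 3 α t + β`: `3 α h'(t) = Y ^ 2 - b₀`, `27 α ^ 2 h(t) = Y ^ 3 - 3 b₀ Y + E`, `27 α ^ 2 discr = 4 b₀ ^ 3 - E ^ 2` (see K/SRZ.lean).
`srp_cub`: `Δ = natAbs (3 α b₀)`; in `ZMod p` take `t` with `Y = -E / b₀`: `Y ^ 2 = 4 b₀`, `Y ^ 3 - 3 b₀ Y + E = 0`, `Y ^ 2 - b₀ = 3 b₀ ≠ 0` (`ZMod.intCast_surjective`, `ZMod.intCast_zmod_eq_zero_iff_dvd`).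
`odd_cub`: `E = 0`, `27 α ^ 2 h(t) = Y ^ 3`; `hint` with `q = natAbs α` gives `(3 α) ^ 3 ∣ Y ^ 3`, so `3 α ∣ β` (`Int.pow_dvd_pow_iff`), `β = -3 α s`; cancel `27 α ^ 2`. -/

namespace Vale.Agent.P042.S

open Finset Polynomial

theorem fld_vcu {F : Type} [Field F] {a b c d : F} (h : 3 * a * (b ^ 2 - 3 * a * c) ≠ 0)
    (hΔ : b ^ 2 * c ^ 2 - 4 * a * c ^ 3 - 4 * b ^ 3 * d - 27 * a ^ 2 * d ^ 2 +
      18 * a * b * c * d = 0) :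
    ∃ t, a * t ^ 3 + b * t ^ 2 + c * t + d = 0 ∧ 3 * a * t ^ 2 + 2 * b * t + c ≠ 0 := by
  obtain ⟨h3, hb⟩ := mul_ne_zero_iff.1 h
  obtain ⟨Y, hY⟩ : ∃ Y, (b ^ 2 - 3 * a * c) * Y = -(27 * a ^ 2 * d + 2 * b ^ 3 - 9 * a * b * c) :=
    ⟨_, mul_div_cancel₀ _ hb⟩
  obtain ⟨t, rfl⟩ : ∃ t, 3 * a * t + b = Y :=
    ⟨(Y - b) / (3 * a), by rw [mul_div_cancel₀ _ h3, sub_add_cancel]⟩
  have h2 : (3 * a * t + b) ^ 2 = 4 * (b ^ 2 - 3 * a * c) :=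
    mul_left_cancel₀ (pow_ne_zero 2 hb) (by
      linear_combination ((b ^ 2 - 3 * a * c) * (3 * a * t + b) -
        (27 * a ^ 2 * d + 2 * b ^ 3 - 9 * a * b * c)) * hY - 27 * a ^ 2 * hΔ)
  refine ⟨t, mul_left_cancel₀ (pow_ne_zero 3 h3) ?_, fun h0 => h ?_⟩
  · linear_combination a * (3 * a * t + b) * h2 + a * hY
  · linear_combination 3 * a ^ 2 * h0 - a * h2

theorem ev_vcu (α β γ δ t : ℤ) :
    (Cubic.toPoly ⟨α, β, γ, δ⟩).eval t = α * t ^ 3 + β * t ^ 2 + γ * t + δ := by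
  simp [Cubic.toPoly]

theorem srp_cub {α β γ δ : ℤ} (hα : α ≠ 0) (hΔ : Cubic.discr ⟨α, β, γ, δ⟩ = 0)
    (hb : β ^ 2 - 3 * α * γ ≠ 0) : SRp (Cubic.toPoly ⟨α, β, γ, δ⟩) := by
  refine ⟨(3 * α * (β ^ 2 - 3 * α * γ)).natAbs,
    Int.natAbs_pos.2 (mul_ne_zero (mul_ne_zero three_ne_zero hα) hb), fun p hp hd => ?_⟩
  have := Fact.mk hp
  rw [← Int.natCast_dvd, ← ZMod.intCast_zmod_eq_zero_iff_dvd] at hd
  have k := congrArg (Int.cast : ℤ → ZMod p) hΔ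
  rw [Cubic.discr] at k
  push_cast at hd k
  obtain ⟨t, h1, h2⟩ := fld_vcu hd k
  obtain ⟨ρ, rfl⟩ := ZMod.intCast_surjective t
  have e : (derivative (Cubic.toPoly ⟨α, β, γ, δ⟩)).eval ρ = 3 * α * ρ ^ 2 + 2 * β * ρ + γ := by
    simp [Cubic.toPoly]
    ring
  refine ⟨ρ, ?_, ?_⟩
  · rw [ev_vcu, ← ZMod.intCast_zmod_eq_zero_iff_dvd]
    exact_mod_cast h1
  · rw [e, ← ZMod.intCast_zmod_eq_zero_iff_dvd]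
    exact_mod_cast h2

theorem odd_cub {α β γ δ : ℤ} (hα : α ≠ 0) (hΔ : Cubic.discr ⟨α, β, γ, δ⟩ = 0)
    (hb : β ^ 2 - 3 * α * γ = 0)
    (hint : ∀ q : ℕ, 1 ≤ q → ∃ t : ℤ, (q : ℤ) ∣ (Cubic.toPoly ⟨α, β, γ, δ⟩).eval t) :
    ∃ s : ℤ, ∀ x : ℤ, (Cubic.toPoly ⟨α, β, γ, δ⟩).eval (s - x) =
      -(Cubic.toPoly ⟨α, β, γ, δ⟩).eval (s + x) := by
  rw [Cubic.discr] at hΔ
  have hE : 27 * α ^ 2 * δ + 2 * β ^ 3 - 9 * α * β * γ = 0 := pow_eq_zero_iff two_ne_zero |>.1 (by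
    linear_combination 4 * (β ^ 2 - 3 * α * γ) ^ 2 * hb - 27 * α ^ 2 * hΔ)
  have key : ∀ t, 27 * α ^ 2 * (α * t ^ 3 + β * t ^ 2 + γ * t + δ) = (3 * α * t + β) ^ 3 :=
    fun t => by linear_combination hE - 3 * (3 * α * t + β) * hb
  obtain ⟨t, ht⟩ := hint α.natAbs (Int.natAbs_pos.2 hα)
  rw [Int.natAbs_dvd, ev_vcu] at ht
  obtain ⟨u, hu⟩ := ht
  obtain ⟨v, hv⟩ : 3 * α ∣ 3 * α * t + β := (Int.pow_dvd_pow_iff three_ne_zero).1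
    ⟨u, by rw [← key, hu]; ring⟩
  refine ⟨t - v, fun x => mul_left_cancel₀ (a := 27 * α ^ 2) (by positivity) ?_⟩
  rw [ev_vcu, ev_vcu, mul_neg, key, key, show β = 3 * α * v - 3 * α * t by linarith]
  ring

end Vale.Agent.P042.S
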