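import Vale.Agent.P042.T.Defs
import Vale.Agent.P042.K.Defs
import Vale.Agent.P042.S.QLocA

/-! # P042 V/Defs: finitely many primes without symmetry (FROZEN, owner helper37).
Overview: notes/P042V.md. -/

namespace Vale.Agent.P042.S

open Finset Polynomial

/-- Simple roots modulo all primes that do not divide `Δ`. -/
def SRp (h : ℤ[X]) : Prop := ∃ Δ : ℕ, 0 < Δ ∧ ∀ p : ℕ, p.Prime → ¬ p ∣ Δ →
  ∃ ρ : ℤ, (p : ℤ) ∣ h.eval ρ ∧ ¬ (p : ℤ) ∣ (derivative h).eval ρ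

/-- The differences `D₁` at the primes up to `y`, those of `ω p` at the other primes. -/
noncomputable def DM (y : ℕ) (D₁ : ℕ → ℕ → ℤ → ℝ) (ω : ℕ → ℤ → ℝ) (p : ℕ) : ℕ → ℤ → ℝ :=
  if p ≤ y then D₁ p else Dw_qo (ω p)

end Vale.Agent.P042.S
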