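import Vale.Agent.P042.T.Fin

/-! # P042 V/Par (TASK; helper names end with _vpa): parameters and the final shape.
`parV`: `τ = min (η / (8 Λ y)) (1 - 2 ^ (-(c / 2))) > 0`, `J₀ = ⌈1 / τ⌉₊`, `b₀ = ⌈1 / c₂⌉₊ + 1`, `J = J₀ L`, `b = b₀ L`, `A = y ^ 2 J₀ + b₀`; model: T/Par.lean.
`bigV`: `tendsto_rpow_atTop`, or explicit roots; `x ^ (-1 / 4)` decreases.
`asym1`: `c = 1 / (A + 1)`; `N ≥ 1`, `L = Nat.log 2 N / (A + 1)`; `N < 2 ^ ((A + 1) (L + 1))`, so `N ^ c ≤ 2 ^ (L + 1)` and `N (1 / 2) ^ L ≤ 2 N ^ (1 - c)`; if `L < L₀` use `x ≤ N = N ^ c N ^ (1 - c) ≤ 2 ^ L₀ N ^ (1 - c)`; for `N = 0` both sides: `x ≤ 0 ≤ ..`. -/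

namespace Vale.Agent.P042.S

open Finset Polynomial

theorem parV {c c₂ Λ η : ℝ} {y : ℕ} (hc : 0 < c) (hc₂ : 0 < c₂) (hΛ : 1 ≤ Λ) (hη : 0 < η)
    (hy : 1 ≤ y) : ∃ τ : ℝ, 0 ≤ τ ∧ (2 : ℝ) ^ (-(c / 2)) ≤ 1 - τ ∧ τ * Λ * y ≤ η / 8 ∧
      ∃ A : ℕ, ∀ L : ℕ, 1 ≤ L → ∃ b J : ℕ, L ≤ b ∧ ((2 ^ b : ℕ) : ℝ) ^ (-c₂) ≤ (1 / 2) ^ L ∧
        (1 - τ) ^ J ≤ (1 / 2) ^ L ∧ y ^ 2 * J + b ≤ A * L ^ 1 := by
  have hy' : (1 : ℝ) ≤ y := by exact_mod_cast hy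
  have h1 : (2 : ℝ) ^ (-(c / 2)) < 1 :=
    Real.rpow_lt_one_of_one_lt_of_neg one_lt_two (by linarith)
  have h2 : (0 : ℝ) < (2 : ℝ) ^ (-(c / 2)) := Real.rpow_pos_of_pos two_pos _
  obtain ⟨τ, t0, t1, t2⟩ : ∃ τ : ℝ, 0 < τ ∧ τ ≤ η / (8 * Λ * y) ∧ τ ≤ 1 - (2 : ℝ) ^ (-(c / 2)) :=
    ⟨min _ _, lt_min (by positivity) (by linarith), min_le_left _ _, min_le_right _ _⟩
  obtain ⟨J₀, hJ⟩ := exists_nat_ge (1 / τ)
  obtain ⟨b₀, hb⟩ := exists_nat_ge (1 / c₂)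
  rw [div_le_iff₀ t0] at hJ
  rw [div_le_iff₀ hc₂] at hb
  rw [le_div_iff₀ (by positivity)] at t1
  refine ⟨τ, t0.le, by linarith, by linarith, y ^ 2 * J₀ + (b₀ + 1), fun L hL =>
    ⟨(b₀ + 1) * L, J₀ * L, Nat.le_mul_of_pos_left _ (Nat.succ_pos _), ?_, ?_, le_of_eq (by ring)⟩⟩
  · have hL0 : (0 : ℝ) ≤ L := Nat.cast_nonneg L
    have e : ((1 : ℝ) / 2) ^ L = (2 : ℝ) ^ (-(L : ℝ)) := by
      rw [Real.rpow_neg two_pos.le, Real.rpow_natCast, one_div, inv_pow]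
    rw [e, Nat.cast_pow, Nat.cast_ofNat, ← Real.rpow_natCast, ← Real.rpow_mul two_pos.le]
    refine Real.rpow_le_rpow_of_exponent_le one_le_two ?_
    push_cast
    have h3 : 1 * (L : ℝ) ≤ (b₀ + 1) * c₂ * L := mul_le_mul_of_nonneg_right (by nlinarith) hL0
    linarith
  · rw [pow_mul]
    refine pow_le_pow_left₀ (pow_nonneg (by linarith) _) ?_ L
    have h3 : 1 - τ ≤ Real.exp (-τ) := by linarith [Real.add_one_le_exp (-τ)]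
    have h4 : (2 : ℝ) ≤ Real.exp 1 := by linarith [Real.add_one_le_exp (1 : ℝ)]
    calc (1 - τ) ^ J₀ ≤ Real.exp (-τ) ^ J₀ := pow_le_pow_left₀ (by linarith) h3 _
      _ = Real.exp (J₀ * -τ) := (Real.exp_nat_mul _ _).symm
      _ ≤ Real.exp (-1) := Real.exp_le_exp.2 (by linarith)
      _ ≤ 1 / 2 := by
        rw [Real.exp_neg, one_div]
        exact inv_anti₀ two_pos h4

theorem bigV {c : ℝ} (hc : 0 < c) (B Γ : ℝ) (m : ℕ) : ∃ y : ℕ, 1 ≤ y ∧ m ≤ y ∧ ∀ p : ℕ, y < p →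
    B ^ 8 ≤ p ∧ 2 * B ^ 2 * (p : ℝ) ^ (-(1 / 4) : ℝ) ≤ 1 ∧ ∀ j : ℕ, 0 < j →
      Γ * ((p ^ j : ℕ) : ℝ) ^ (-c) ≤ ((p ^ j : ℕ) : ℝ) ^ (-(c / 2)) := by
  have hn : Filter.Tendsto (fun p : ℕ => (p : ℝ)) Filter.atTop Filter.atTop :=
    tendsto_natCast_atTop_atTop
  have h1 := hn.eventually_ge_atTop (B ^ 8)
  have h2 := (((tendsto_rpow_neg_atTop (y := 1 / 4) (by norm_num)).comp hn).const_mul
    (2 * B ^ 2)).eventually_le_const (u := 1) (by simp)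
  have h3 := ((tendsto_rpow_atTop (y := c / 2) (by positivity)).comp hn).eventually_ge_atTop Γ
  obtain ⟨y, hy⟩ := Filter.eventually_atTop.1 (h1.and (h2.and h3))
  refine ⟨y + m + 1, by omega, by omega, fun p hp => ?_⟩
  obtain ⟨a1, a2, a3⟩ := hy p (by omega)
  refine ⟨a1, a2, fun j hj => ?_⟩
  have b1 : p ≤ p ^ j := Nat.le_self_pow hj.ne' p
  have b2 : (p : ℝ) ≤ ((p ^ j : ℕ) : ℝ) := by exact_mod_cast b1
  have b3 : (0 : ℝ) < p := by exact_mod_cast (show 0 < p by omega)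
  have b4 : Γ ≤ ((p ^ j : ℕ) : ℝ) ^ (c / 2) :=
    le_trans a3 (Real.rpow_le_rpow b3.le b2 (by positivity))
  generalize ((p ^ j : ℕ) : ℝ) = x at b2 b4
  have b5 : 0 < x := b3.trans_le b2
  calc Γ * x ^ (-c) ≤ x ^ (c / 2) * x ^ (-c) :=
        mul_le_mul_of_nonneg_right b4 (Real.rpow_nonneg b5.le _)
    _ = x ^ (-(c / 2)) := by
      rw [← Real.rpow_add b5]
      exact congrArg _ (by ring)

theorem asym1 (A : ℕ) : ∃ c : ℝ, 0 < c ∧ ∀ (L₀ : ℕ) (C : ℝ), ∃ C' : ℝ, ∀ (N : ℕ) (x : ℝ), x ≤ N →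
    (∀ L : ℕ, L₀ ≤ L → 2 ^ (A * L ^ 1) ≤ N → x ≤ C * N * (1 / 2) ^ L) →
      x ≤ C' * (N : ℝ) ^ (1 - c) := by
  have hA : (0 : ℝ) < (A : ℝ) + 1 := by positivity
  refine ⟨1 / ((A : ℝ) + 1), by positivity, fun L₀ C => ⟨2 * |C| + 2 ^ L₀, fun N x hx h => ?_⟩⟩
  have hC := abs_nonneg C
  have hr := Real.rpow_nonneg (Nat.cast_nonneg N : (0 : ℝ) ≤ N) (1 - 1 / ((A : ℝ) + 1))
  rcases Nat.eq_zero_or_pos N with rfl | hN
  · exact le_trans (by simpa using hx) (mul_nonneg (by positivity) hr)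
  have hN' : (0 : ℝ) < N := by exact_mod_cast hN
  obtain ⟨L, h1, h2⟩ : ∃ L : ℕ, 2 ^ (A * L ^ 1) ≤ N ∧ N ≤ (2 ^ (L + 1)) ^ (A + 1) := by
    refine ⟨Nat.log 2 N / (A + 1), le_trans (Nat.pow_le_pow_right two_pos ?_)
      (Nat.pow_log_le_self 2 hN.ne'), ?_⟩
    · rw [pow_one]
      exact le_trans (Nat.mul_le_mul_right _ (Nat.le_succ A)) (Nat.mul_div_le _ _)
    · rw [← pow_mul]
      refine le_trans (Nat.lt_pow_succ_log_self one_lt_two N).le (Nat.pow_le_pow_right two_pos ?_)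
      rw [mul_comm]
      exact Nat.lt_mul_div_succ _ (Nat.succ_pos A)
  have h3 : (N : ℝ) ^ (1 / ((A : ℝ) + 1)) ≤ 2 ^ (L + 1) := by
    have a1 : (N : ℝ) ≤ ((2 : ℝ) ^ (L + 1)) ^ (A + 1) := by exact_mod_cast h2
    refine (Real.rpow_le_rpow hN'.le a1 (by positivity)).trans (le_of_eq ?_)
    rw [one_div, ← Nat.cast_succ]
    exact Real.pow_rpow_inv_natCast (by positivity) (Nat.succ_ne_zero A)
  have h4 : (N : ℝ) ≤ 2 ^ (L + 1) * (N : ℝ) ^ (1 - 1 / ((A : ℝ) + 1)) := by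
    refine le_trans (le_of_eq ?_) (mul_le_mul_of_nonneg_right h3 hr)
    rw [← Real.rpow_add hN', add_sub_cancel, Real.rpow_one]
  generalize (N : ℝ) ^ (1 - 1 / ((A : ℝ) + 1)) = r at hr h4
  have h5 : 0 ≤ 2 * |C| * r := by positivity
  have h6 : 0 ≤ 2 ^ L₀ * r := by positivity
  rw [add_mul]
  by_cases hL : L₀ ≤ L
  · have a1 : C * N * (1 / 2) ^ L ≤ |C| * (2 ^ (L + 1) * r) * (1 / 2) ^ L := by
      gcongr
      exact le_abs_self C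
    have a2 : |C| * (2 ^ (L + 1) * r) * (1 / 2) ^ L = 2 * |C| * r := by
      rw [one_div, inv_pow, pow_succ]
      field_simp
    linarith [h L hL h1]
  · have a1 : (2 : ℝ) ^ (L + 1) * r ≤ 2 ^ L₀ * r :=
      mul_le_mul_of_nonneg_right (pow_le_pow_right₀ one_le_two (by omega)) hr
    linarith

end Vale.Agent.P042.S
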