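import Vale.Agent.P042.V.Big
import Vale.Agent.P042.V.Par
import Vale.Agent.P042.T.GlobT
import Vale.Agent.P042.K.GenB

/-! # P042 V/GlobV (TASK; helper names end with _vgl): the singular series lies in a sector.
Model: T/GlobT.lean.  `k = natDegree h`, `c, Λ` from `locT k`, `c'` from `big_loc k`, `B, m` from `Sym`, `Δ` from `SRp`, `y` from `bigV` with `c'`, `B`, `Γ = 6 |lead| + 2 B ^ 2 + 1`, `m Δ`; a prime `p > y` divides neither `m` nor `Δ`; choose `ω p` by `good4` for primes `p > y` (`ω p = fun _ => 1` otherwise);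
`τ, A, b, J` from `parV` with `c₂ = c' / 2`; `R = y ! ^ J * 2 ^ b` (`fact_le`), `z` with `E ! ∣ h z`, `D₁ = DT (fun _ => 1 - τ) (fun _ => J) z`, `D = DM y D₁ ω`, `w = wT D (y ! ^ J) (2 ^ b)`; `wT_wk`, `sg_one`, `smooth_rough`, `sg_split`.
First factor: `prod_sec` with `P p = p ≤ y`, `ξ = τ Λ`, `DM_small`, `locT`, `omega_le'`, `pow_sec`.  Second factor: if `q₂ ≤ 2 ^ b`, `prod_sec` with `P p = y < p`, `ξ = 0`, `big_loc` (with `2 B ^ 2`); otherwise `prod_dec` with `c' / 2`.  `Sec.mul`, `Sec.mono`, `Sec.fin`. -/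

namespace Vale.Agent.P042.S

open Finset Polynomial

theorem globV {η : ℝ} (h0 : 0 < η) (h1 : η ≤ 1) {h : ℤ[X]} (hk : 1 ≤ h.natDegree)
    (hint : ∀ q : ℕ, 1 ≤ q → ∃ t : ℤ, (q : ℤ) ∣ h.eval t) (hr : SRp h) (hs : Sym h) :
    ∃ A : ℕ, ∀ L : ℕ, 1 ≤ L →
      ∃ R : ℕ, 2 ^ L ≤ R ∧ R ≤ 2 ^ (A * L ^ 1) ∧ ∀ E : ℕ, ∃ w, Ser h η (2 * (1 / 2) ^ L) R E w := by
  obtain ⟨c, Λ, hc, hc1, hΛ, hloc⟩ := locT h.natDegree
  obtain ⟨c', hc', hbig⟩ := big_loc h.natDegree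
  obtain ⟨B, m, hm, hsym⟩ := hs
  obtain ⟨Δ, hΔ, hroot⟩ := hr
  obtain ⟨y, y3, ym, hy'⟩ := bigV hc' B (6 * |(h.leadingCoeff : ℝ)| + 2 * B ^ 2 + 1) (m * Δ)
  have hω : ∀ p : ℕ, ∃ ω : ℤ → ℝ, Function.Periodic ω (p : ℤ) ∧ (p.Prime → y < p →
      ∑ t ∈ range p, ω t = p ∧ (∀ n, 0 ≤ ω n ∧ ω n ≤ p) ∧ ∀ (j : ℕ) (a : ℤ), IsCoprime a p →
        ∃ κ : ℝ, 0 ≤ κ ∧ κ ≤ 2 * B ^ 2 * ((p ^ (j + 1) : ℕ) : ℝ) ^ (-(1 / 4) : ℝ) ∧
          (av (p ^ (j + 1)) fun n => ω n * ph h a (p ^ (j + 1)) n) = κ) := fun p => by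
    by_cases hp : p.Prime ∧ y < p
    · have := Fact.mk hp.1
      have e1 : ¬ p ∣ m * Δ := fun e => by
        have := Nat.le_of_dvd (Nat.mul_pos hm hΔ) e
        omega
      obtain ⟨ρ, r1, r2⟩ := hroot p hp.1 fun e => e1 (e.mul_left m)
      obtain ⟨ω, w1, w2⟩ := good4 (hsym p fun e => e1 (e.mul_right Δ)) (hy' p hp.2).1 r1 r2
      exact ⟨ω, w1, fun _ _ => w2⟩
    · exact ⟨fun _ => 1, fun _ => rfl, fun a b => absurd ⟨a, b⟩ hp⟩
  choose ω ω1 ω2 using hω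
  obtain ⟨τ, t0, t1, t2, A, hA⟩ := parV hc (half_pos hc') hΛ h0 y3
  refine ⟨A, fun L hL => ?_⟩
  obtain ⟨b, J, hb, b1, t3, hAe⟩ := hA L hL
  refine ⟨y.factorial ^ J * 2 ^ b, (Nat.pow_le_pow_right two_pos hb).trans
    (Nat.le_mul_of_pos_left _ (pow_pos y.factorial_pos J)),
    (fact_le y J b).trans (Nat.pow_le_pow_right two_pos hAe), fun E => ?_⟩
  obtain ⟨z, hz⟩ := hint E.factorial E.factorial_pos
  have hdv : ∀ p : ℕ, p.Prime → ∀ j : ℕ, p ^ j ≤ E → ((p ^ j : ℕ) : ℤ) ∣ h.eval z :=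
    fun p hp j hj => (Int.natCast_dvd_natCast.2 (Nat.dvd_factorial (pow_pos hp.pos j) hj)).trans hz
  have hc2 : -(c / 2) ≤ 0 := by linarith
  have hε0 : (0 : ℝ) ≤ (1 / 2) ^ L := by positivity
  have hε1 : (1 / 2 : ℝ) ^ L ≤ 1 := pow_le_one₀ (by norm_num) (by norm_num)
  have hΛ0 : 0 ≤ Λ := zero_le_one.trans hΛ
  have r0 : ∀ p : ℕ, (0 : ℝ) ≤ (p : ℝ) ^ (-(c / 2)) := fun p => by positivity
  have r1 : ∀ p : ℕ, 1 ≤ p → (p : ℝ) ^ (-(c / 2)) ≤ 1 := fun p hp =>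
    Real.rpow_le_one_of_one_le_of_nonpos (by exact_mod_cast hp) hc2
  have t4 : 0 ≤ 1 - τ := le_trans (by positivity) t1
  have t5 : 1 - τ ≤ 1 := by linarith
  have hW1 : LW (DT (fun _ => 1 - τ) (fun _ => J) z) := DT_lw (fun _ => t4) fun _ => t5
  have hW : LW (DM y (DT (fun _ => 1 - τ) (fun _ => J) z) ω) :=
    DM_lw hW1 ω1 fun p hp hy => ⟨(ω2 p hp hy).1, (ω2 p hp hy).2.1⟩
  have hD : ∀ p : ℕ, p.Prime → p ≤ y → ∀ i, J < i → ∀ n,
      DM y (DT (fun _ => 1 - τ) (fun _ => J) z) ω p i n = 0 := by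
    intro p _ hp i hi n
    rw [DM, if_pos hp]
    cases i with
    | zero => omega
    | succ i => exact if_neg (not_lt.2 (Nat.le_of_lt_succ hi))
  have s1 := prod_sec (h := h) hW (P := fun p => p ≤ y) (ξ := τ * Λ) (E := E) (by positivity) hε0 hε1
    fun p hp hy j a hj ha => by
      have e1 : (p : ℝ) ^ (-(c / 2)) ≤ 1 - τ :=
        (Real.rpow_le_rpow_of_nonpos two_pos (by exact_mod_cast hp.two_le) hc2).trans t1
      have e2 := (hloc h hk le_rfl (fun _ => 1 - τ) (fun _ => J) z (fun _ => t4) (fun _ => t5) p hp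
        e1 j a (hdv p hp j hj) ha).1
      rw [sub_sub_cancel] at e2
      rw [DM_small hW1 hW hp hy]
      have e3 := r0 p
      refine e2.mono (by positivity) ?_ (pow_nonneg t4 J) t3
      have e4 := mul_le_mul_of_nonneg_left (r1 p hp.one_le) (mul_nonneg t0 hΛ0)
      linarith
  have hl2 := fun (p : ℕ) (hp : p.Prime) (hy : y < p) => hbig h hk le_rfl _ hW p hp (ω p)
    (2 * B ^ 2) (if_neg (not_le.2 hy)) (by positivity) (hy' p hy).2.1 (ω2 p hp hy).2.2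
  have s2 := prod_sec (h := h) hW (P := fun p => y < p) (ξ := 0) (E := E) le_rfl hε0 hε1
    fun p hp hy j a _ ha => (hl2 p hp hy j a ha).1.mono zero_le_one (by linarith) le_rfl hε0
  have s3 := prod_dec (h := h) hW (P := fun p => y < p) (c := c' / 2) (E := E)
    fun p hp hy j a j0 _ ha => (hl2 p hp hy j a ha).2.trans ((hy' p hy).2.2 j j0)
  obtain ⟨D, hDe⟩ : ∃ D, D = DM y (DT (fun _ => 1 - τ) (fun _ => J) z) ω := ⟨_, rfl⟩
  rw [← hDe] at hW hD s1 s2 s3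
  refine ⟨wT D (y.factorial ^ J) (2 ^ b), wT_wk hW _ _, sg_one hW Nat.one_le_two_pow hD,
    fun q hq hE a ha => ?_⟩
  obtain ⟨q₁, q₂, rfl, hcp, hs, hr⟩ := smooth_rough y q hq
  have q1 : 0 < q₁ := Nat.pos_of_mul_pos_right hq
  have q2 : 0 < q₂ := Nat.pos_of_mul_pos_left hq
  have q3 : q₁ ≤ E := (Nat.le_mul_of_pos_right _ q2).trans hE
  have q4 : q₂ ≤ E := (Nat.le_mul_of_pos_left _ q1).trans hE
  obtain ⟨a₁, a₂, a1, a2, hS⟩ := sg_split (h := h) (R₂ := 2 ^ b) hW hD q1 q2 hcp hs hr ha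
  rw [hS]
  have f1 : Sec (1 + η / 4) ((1 / 2) ^ L) (∑ d ∈ q₁.divisors, tm h D q₁ a₁ d) := by
    refine (s1 q₁ q1 q3 hs a₁ a1).mono (by positivity) (pow_sec (by positivity) h1 ?_) hε0 le_rfl
    have e1 : (q₁.primeFactors.card : ℝ) ≤ y := by exact_mod_cast omega_le' hs
    exact (mul_le_mul_of_nonneg_left e1 (by positivity)).trans t2
  have f2 : Sec 1 ((1 / 2) ^ L) (∑ d ∈ q₂.divisors with d ≤ 2 ^ b, tm h D q₂ a₂ d) := by
    rcases le_or_gt q₂ (2 ^ b) with hq2 | hq2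
    · rw [filter_true_of_mem fun d hd => (Nat.divisor_le hd).trans hq2]
      simpa only [add_zero, one_pow] using s2 q₂ q2 q4 hr a₂ a2
    · refine Or.inl ((norm_sum_le _ _).trans ((sum_le_sum_of_subset_of_nonneg (filter_subset _ _)
        fun _ _ _ => norm_nonneg _).trans ((s3 q₂ q2 q4 hr a₂ a2).trans ?_)))
      have e1 : (q₂ : ℝ) ^ (-(c' / 2)) ≤ ((2 ^ b : ℕ) : ℝ) ^ (-(c' / 2)) :=
        Real.rpow_le_rpow_of_nonpos (by positivity) (by exact_mod_cast hq2.le)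
          (neg_nonpos.2 (by positivity))
      linarith
  exact (Sec.mul (by linarith) le_rfl hε0 hε1 f1 f2).fin (by linarith) h0.le h1 hε0

end Vale.Agent.P042.S
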